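import Vale.Agent.Lib.P308.Cross

/-!
# P308: the length of the path
-/

namespace Vale.Agent.P308

open Finset Function

variable {V : Type*}

/-- every sequence of edges `x₁ y₁, ..., x_s y_s` with `x₁, ..., x_s` distinct and independent and
`x_i` not joined to `y_j` for `i < j` has length `≤ a` -/
def Priv (G : SimpleGraph V) (a : ℕ) : Prop :=
  ∀ l : List (V × V), (∀ p ∈ l, G.Adj p.1 p.2) →
    l.Pairwise (fun p q => p.1 ≠ q.1 ∧ ¬ G.Adj p.1 q.1 ∧ ¬ G.Adj p.1 q.2) → l.length ≤ a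

section

variable [Fintype V] {G : SimpleGraph V} {a : ℕ} {f g : V → V} {m : ℕ} {E : ℕ → V}

theorem even_card (hpr : Priv G a) (hf : Invo G f) (hc : Closest G f g) (hP : APath f g m E)
    (hfix : ∀ x, f x = x → x = E 0 ∨ x = E m) (S : Finset ℕ) (hS : ∀ i ∈ S, i < m)
    (hi : ∀ i ∈ S, ∀ j ∈ S, i < j → ¬ G.Adj (E i) (E j)) : #S ≤ a := by
  have h := hpr ((S.sort (· ≤ ·)).map (fun k => (E k, E (2 * m - 1 - k)))) ?_ ?_
  · rwa [List.length_map, Finset.length_sort] at h
  · intro p hp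
    obtain ⟨k, hk, rfl⟩ := List.mem_map.1 hp
    have := hS k ((Finset.mem_sort _).1 hk)
    exact adj_g hc.1 hP (by omega)
  · rw [List.pairwise_map]
    refine List.Pairwise.imp_of_mem ?_ (Finset.sortedLT_sort S).pairwise
    intro i j hi' hj' hij
    have h1 := (Finset.mem_sort _).1 hi'
    have h2 := (Finset.mem_sort _).1 hj'
    have h3 := hS i h1
    have h4 := hS j h2
    refine ⟨fun h => ?_, hi i h1 j h2 hij, no_chord hf hc hP hfix hij h4⟩
    have := hP.inj i j (by omega) (by omega) h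
    omega

theorem odd_card (hpr : Priv G a) (hf : Invo G f) (hc : Closest G f g) (hP : APath f g m E)
    (hfix : ∀ x, f x = x → x = E 0 ∨ x = E m) (S : Finset ℕ) (hS : ∀ i ∈ S, i < m)
    (hi : ∀ i ∈ S, ∀ j ∈ S, i < j → ¬ G.Adj (E (2 * m - 1 - i)) (E (2 * m - 1 - j))) :
    #S ≤ a := by
  have h := hpr ((S.sort (· ≥ ·)).map (fun k => (E (2 * m - 1 - k), E k))) ?_ ?_
  · rwa [List.length_map, Finset.length_sort] at h
  · intro p hp
    obtain ⟨k, hk, rfl⟩ := List.mem_map.1 hp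
    have := hS k ((Finset.mem_sort _).1 hk)
    exact (adj_g hc.1 hP (by omega)).symm
  · rw [List.pairwise_map]
    refine List.Pairwise.imp_of_mem ?_ (Finset.sortedGT_sort S).pairwise
    intro i j hi' hj' hij
    have h1 := (Finset.mem_sort _).1 hi'
    have h2 := (Finset.mem_sort _).1 hj'
    have h3 := hS i h1
    have h4 := hS j h2
    have hij' : j < i := hij
    refine ⟨fun h => ?_, fun h => hi j h2 i h1 hij' h.symm, fun h =>
      no_chord hf hc hP hfix hij' h3 h.symm⟩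
    have := hP.inj _ _ (by omega) (by omega) h
    omega

theorem length_le (hpr : Priv G a) (hf : Invo G f) (hc : Closest G f g) (hP : APath f g m E)
    (hfix : ∀ x, f x = x → x = E 0 ∨ x = E m) : m ≤ 4 * a := by
  classical
  obtain ⟨J, hJ⟩ : ∃ J : ℕ → Prop, ∀ j, J j ↔ ∃ i, i < j ∧ G.Adj (E i) (E j) :=
    ⟨_, fun j => Iff.rfl⟩
  obtain ⟨K, hK⟩ : ∃ K : ℕ → Prop, ∀ k, K k ↔ ∃ l, k < l ∧ l < m ∧
      G.Adj (E (2 * m - 1 - k)) (E (2 * m - 1 - l)) := ⟨_, fun j => Iff.rfl⟩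
  have hA1 : #((range m).filter (fun j => ¬ J j)) ≤ a := by
    refine even_card hpr hf hc hP hfix _ (fun i hi => mem_range.1 (mem_filter.1 hi).1) ?_
    intro i _ j hj hij hadj
    exact (mem_filter.1 hj).2 ((hJ j).2 ⟨i, hij, hadj⟩)
  have hA2 : #((range m).filter (fun k => ¬ K k)) ≤ a := by
    refine odd_card hpr hf hc hP hfix _ (fun i hi => mem_range.1 (mem_filter.1 hi).1) ?_
    intro i hi j hj hij hadj
    exact (mem_filter.1 hi).2 ((hK i).2 ⟨j, hij, mem_range.1 (mem_filter.1 hj).1, hadj⟩)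
  have hB : #((range m).filter (fun k => ¬ (k + 1 < m ∧ J (k + 1)))) ≤ a := by
    refine le_trans ?_ hA1
    refine Finset.card_le_card_of_injOn (fun k => if k + 1 < m then k + 1 else 0) ?_ ?_
    · intro k hk
      have hk' := mem_filter.1 hk
      have hkm := mem_range.1 hk'.1
      refine mem_filter.2 ?_
      simp only
      split_ifs with h1
      · exact ⟨mem_range.2 h1, fun h2 => hk'.2 ⟨h1, h2⟩⟩
      · refine ⟨mem_range.2 (by omega), fun h2 => ?_⟩
        obtain ⟨i, hi, -⟩ := (hJ 0).1 h2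
        omega
    · intro k hk l hl h
      have hkm := mem_range.1 (mem_filter.1 hk).1
      have hlm := mem_range.1 (mem_filter.1 hl).1
      simp only at h
      split_ifs at h <;> omega
  have hT : ∀ r, #((range m).filter (fun k => K k ∧ (k + 1 < m ∧ J (k + 1)) ∧ k % 2 = r)) ≤ a := by
    intro r
    refine odd_card hpr hf hc hP hfix _ (fun i hi => mem_range.1 (mem_filter.1 hi).1) ?_
    intro k hk l hl hkl hadj
    obtain ⟨hk1, -, ⟨-, hk3⟩, hk4⟩ := mem_filter.1 hk
    obtain ⟨hl1, -, -, hl4⟩ := mem_filter.1 hl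
    obtain ⟨i, hi, hie⟩ := (hJ (k + 1)).1 hk3
    have := no_cross hf hc hP hfix (Nat.lt_succ_iff.1 hi) (Nat.lt_succ_self k)
      (Nat.succ_le_of_lt hkl) (mem_range.1 hl1) hie hadj
    omega
  have hcov : range m ⊆ ((range m).filter (fun k => ¬ K k) ∪
      (range m).filter (fun k => ¬ (k + 1 < m ∧ J (k + 1)))) ∪
      ((range m).filter (fun k => K k ∧ (k + 1 < m ∧ J (k + 1)) ∧ k % 2 = 0) ∪
      (range m).filter (fun k => K k ∧ (k + 1 < m ∧ J (k + 1)) ∧ k % 2 = 1)) := by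
    intro k hk
    simp only [mem_union, mem_filter]
    have h2 : k % 2 = 0 ∨ k % 2 = 1 := by omega
    by_cases h1 : K k
    · by_cases h3 : k + 1 < m ∧ J (k + 1)
      · rcases h2 with h2 | h2
        · exact Or.inr (Or.inl ⟨hk, h1, h3, h2⟩)
        · exact Or.inr (Or.inr ⟨hk, h1, h3, h2⟩)
      · exact Or.inl (Or.inr ⟨hk, h3⟩)
    · exact Or.inl (Or.inl ⟨hk, h1⟩)
  have h1 := card_le_card hcov
  have h2 := card_union_le ((range m).filter (fun k => ¬ K k) ∪
      (range m).filter (fun k => ¬ (k + 1 < m ∧ J (k + 1))))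
      ((range m).filter (fun k => K k ∧ (k + 1 < m ∧ J (k + 1)) ∧ k % 2 = 0) ∪
      (range m).filter (fun k => K k ∧ (k + 1 < m ∧ J (k + 1)) ∧ k % 2 = 1))
  have h3 := card_union_le ((range m).filter (fun k => ¬ K k))
      ((range m).filter (fun k => ¬ (k + 1 < m ∧ J (k + 1))))
  have h4 := card_union_le ((range m).filter (fun k => K k ∧ (k + 1 < m ∧ J (k + 1)) ∧ k % 2 = 0))
      ((range m).filter (fun k => K k ∧ (k + 1 < m ∧ J (k + 1)) ∧ k % 2 = 1))
  have h5 := hT 0
  have h6 := hT 1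
  rw [card_range] at h1
  omega

end

/-- a perfect matching which differs from `f` on a short path only -/
theorem exists_short [Fintype V] {G : SimpleGraph V} {a : ℕ} (hpr : Priv G a)
    (hG : ∃ g, Perf G g) {f : V → V} (hf : Invo G f) {u v : V}
    (hfix : ∀ x, f x = x ↔ x = u ∨ x = v) :
    ∃ g m E, Perf G g ∧ APath f g m E ∧ (∀ x, (∀ t, t < 2 * m → x ≠ E t) → g x = f x) ∧
      m ≤ 4 * a := by
  obtain ⟨g₀, hc⟩ := exists_closest f hG
  obtain ⟨m, E, hP, hE⟩ := exists_path hf hc.1 ((hfix u).2 (Or.inl rfl))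
  have hm := hP.pos
  have hEm : E m = v := by
    rcases (hfix (E m)).1 hP.f_mid with h | h
    · rw [← hE] at h
      have := hP.inj m 0 (by omega) (by omega) h
      omega
    · exact h
  have hfix' : ∀ x, f x = x → x = E 0 ∨ x = E m := fun x hx => by
    rw [hE, hEm]
    exact (hfix x).1 hx
  obtain ⟨g, hg, h1, h2⟩ := modify hf hP hfix' (fun t => 2 * m - 1 - t) (fun t ht =>
    ⟨by omega, by omega, adj_g hc.1 hP ht⟩)
  exact ⟨g, m, E, hg, ⟨hP.pos, hP.inj, h1, hP.hf, hP.hf0⟩, h2, length_le hpr hf hc hP hfix'⟩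

end Vale.Agent.P308
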