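import Mathlib

/-!
# P308: short augmenting paths

Perfect and near-perfect matchings are represented by involutions `V → V`.  For a near-perfect matching
`f` we take the perfect matching `g` closest to `f`.  The two matchings differ on one alternating path
`E 0, E (2m-1), E 1, E (2m-2), ..., E (m-1), E m` (`g` pairs `E i` with `E (2m-1-i)`, `f` pairs `E i` with
`E (2m-i)` for `0 < i < 2m`, `i ≠ m`, and fixes `E 0` and `E m`).  Chords of the path which would give a
closer perfect matching do not exist, and this bounds `m`.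
-/

namespace Vale.Agent.P308

open Finset Function

variable {V : Type*}

/-- an involution whose moved points are joined to their images -/
structure Invo (G : SimpleGraph V) (f : V → V) : Prop where
  inv : ∀ x, f (f x) = x
  adj : ∀ x, f x ≠ x → G.Adj x (f x)

/-- a perfect matching, as an involution -/
structure Perf (G : SimpleGraph V) (g : V → V) : Prop where
  inv : ∀ x, g (g x) = x
  adj : ∀ x, G.Adj x (g x)

/-- alternating path from one fixed point of `f` to the other -/
structure APath (f g : V → V) (m : ℕ) (E : ℕ → V) : Prop where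
  pos : 1 ≤ m
  inj : ∀ i j, i < 2 * m → j < 2 * m → E i = E j → i = j
  hg : ∀ i, i < 2 * m → g (E i) = E (2 * m - 1 - i)
  hf : ∀ i, 0 < i → i < 2 * m → f (E i) = E (2 * m - i)
  hf0 : f (E 0) = E 0

/-- the index of the partner in `f` -/
def phi (m t : ℕ) : ℕ := if t = 0 then 0 else 2 * m - t

theorem APath.f_phi {f g : V → V} {m : ℕ} {E : ℕ → V} (h : APath f g m E) {t : ℕ}
    (ht : t < 2 * m) : f (E t) = E (phi m t) := by
  unfold phi
  split_ifs with h0
  · rw [h0, h.hf0]
  · exact h.hf t (Nat.pos_of_ne_zero h0) ht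

theorem phi_lt {m t : ℕ} (ht : t < 2 * m) : phi m t < 2 * m := by
  unfold phi
  split_ifs <;> omega

theorem exists_path [Finite V] {G : SimpleGraph V} {f g : V → V} (hf : Invo G f) (hg : Perf G g)
    {u : V} (hu : f u = u) : ∃ m E, APath f g m E ∧ E 0 = u := by
  have hfi : Injective f := fun x y hxy => by rw [← hf.inv x, hxy, hf.inv]
  have hgi : Injective g := fun x y hxy => by rw [← hg.inv x, hxy, hg.inv]
  have hs : Injective (f ∘ g) := hfi.comp hgi
  obtain ⟨a, b, hab, he⟩ := Finite.exists_ne_map_eq_of_infinite (fun n : ℕ => (f ∘ g)^[n] u)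
  have hper : ∃ n, 0 < n ∧ (f ∘ g)^[n] u = u := by
    rcases lt_or_gt_of_ne hab with h | h
    · refine ⟨b - a, by omega, ?_⟩
      apply hs.iterate a
      rw [← Function.iterate_add_apply, show a + (b - a) = b by omega]
      exact he.symm
    · refine ⟨a - b, by omega, ?_⟩
      apply hs.iterate b
      rw [← Function.iterate_add_apply, show b + (a - b) = a by omega]
      exact he
  obtain ⟨n, hn, hn'⟩ := hper
  have hL : 0 < minimalPeriod (f ∘ g) u := IsPeriodicPt.minimalPeriod_pos hn hn'
  obtain ⟨L, hLdef⟩ : ∃ L, L = minimalPeriod (f ∘ g) u := ⟨_, rfl⟩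
  rw [← hLdef] at hL
  obtain ⟨E, hE⟩ : ∃ E : ℕ → V, E = fun i => (f ∘ g)^[i] u := ⟨_, rfl⟩
  have hE0 : E 0 = u := by rw [hE]; rfl
  have hEs : ∀ i, E (i + 1) = f (g (E i)) := fun i => by
    rw [hE]
    exact Function.iterate_succ_apply' (f ∘ g) i u
  have hEL : E L = u := by
    rw [hE, hLdef]
    exact iterate_minimalPeriod
  have hinj : ∀ i j, i < L → j < L → E i = E j → i = j := fun i j hi hj h => by
    rw [hE] at h
    rw [hLdef] at hi hj
    exact iterate_injOn_Iio_minimalPeriod hi hj h
  -- `g (E i) = E (L - 1 - i)`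
  have hgE : ∀ i, i < L → g (E i) = E (L - 1 - i) := by
    intro i
    induction i with
    | zero =>
      intro _
      have h1 : E L = f (g (E (L - 1))) := by
        have := hEs (L - 1)
        rwa [Nat.sub_add_cancel hL] at this
      rw [hEL] at h1
      have h2 : g (E (L - 1)) = u := by
        apply hfi
        rw [← h1, hu]
      rw [hE0, Nat.sub_zero, ← h2, hg.inv]
    | succ i ih =>
      intro hi
      have h1 := ih (by omega)
      have h2 : E (L - 1 - i) = f (g (E (L - 1 - (i + 1)))) := by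
        have := hEs (L - 1 - (i + 1))
        rwa [show L - 1 - (i + 1) + 1 = L - 1 - i by omega] at this
      rw [hEs i, h1, h2, hf.inv, hg.inv]
  have hev : Even L := by
    by_contra hodd
    rw [Nat.not_even_iff_odd] at hodd
    obtain ⟨r, hr⟩ := hodd
    have h1 := hgE r (by omega)
    rw [show L - 1 - r = r by omega] at h1
    have h2 := hg.adj (E r)
    rw [h1] at h2
    exact h2.ne rfl
  obtain ⟨m, hm⟩ := hev
  have hm2 : L = 2 * m := by omega
  subst hm2
  refine ⟨m, E, ⟨by omega, hinj, hgE, fun i hi hi' => ?_, by rw [hE0, hu]⟩, hE0⟩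
  have h1 := hEs (2 * m - i)
  rcases Nat.lt_or_ge 1 i with h2 | h2
  · rw [hgE _ (by omega), show 2 * m - 1 - (2 * m - i) = i - 1 by omega] at h1
    have h3 := hEs (i - 1)
    rw [Nat.sub_add_cancel hi, hgE _ (by omega), show 2 * m - 1 - (i - 1) = 2 * m - i by omega] at h3
    rw [h3, hf.inv]
  · have h4 : i = 1 := by omega
    subst h4
    have h3 := hEs 0
    rw [hgE 0 hL, Nat.sub_zero, Nat.zero_add] at h3
    rw [h3, hf.inv]

/-- the last vertex is fixed -/
theorem APath.f_mid {f g : V → V} {m : ℕ} {E : ℕ → V} (h : APath f g m E) : f (E m) = E m := by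
  have h1 := h.pos
  have := h.hf m (by omega) (by omega)
  rwa [show 2 * m - m = m by omega] at this

open Classical in
/-- rearranging the matching on the path -/
theorem modify {G : SimpleGraph V} {f g : V → V} {m : ℕ} {E : ℕ → V} (hf : Invo G f)
    (hP : APath f g m E) (hfix : ∀ x, f x = x → x = E 0 ∨ x = E m) (p : ℕ → ℕ)
    (hp : ∀ t, t < 2 * m → p t < 2 * m ∧ p (p t) = t ∧ G.Adj (E t) (E (p t))) :
    ∃ g', Perf G g' ∧ (∀ t, t < 2 * m → g' (E t) = E (p t)) ∧
      ∀ x, (∀ t, t < 2 * m → x ≠ E t) → g' x = f x := by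
  obtain ⟨g', hg'⟩ : ∃ g' : V → V, g' = fun x =>
      if h : ∃ t, t < 2 * m ∧ x = E t then E (p h.choose) else f x := ⟨_, rfl⟩
  have h1 : ∀ t, t < 2 * m → g' (E t) = E (p t) := by
    intro t ht
    have h : ∃ s, s < 2 * m ∧ E t = E s := ⟨t, ht, rfl⟩
    have h2 : h.choose = t := (hP.inj t h.choose ht h.choose_spec.1 h.choose_spec.2).symm
    rw [hg']
    simp only
    rw [dif_pos h, h2]
  have h2 : ∀ x, (∀ t, t < 2 * m → x ≠ E t) → g' x = f x := by
    intro x hx
    rw [hg']
    simp only
    rw [dif_neg]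
    rintro ⟨t, ht, hxt⟩
    exact hx t ht hxt
  have h3 : ∀ x, (∀ t, t < 2 * m → x ≠ E t) → ∀ t, t < 2 * m → f x ≠ E t := by
    intro x hx t ht h
    have h4 : x = E (phi m t) := by rw [← hP.f_phi ht, ← h, hf.inv]
    exact hx _ (phi_lt ht) h4
  refine ⟨g', ⟨fun x => ?_, fun x => ?_⟩, h1, h2⟩
  · by_cases hx : ∃ t, t < 2 * m ∧ x = E t
    · obtain ⟨t, ht, rfl⟩ := hx
      rw [h1 t ht, h1 _ (hp t ht).1, (hp t ht).2.1]
    · push Not at hx
      rw [h2 x hx, h2 _ (h3 x hx), hf.inv]
  · by_cases hx : ∃ t, t < 2 * m ∧ x = E t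
    · obtain ⟨t, ht, rfl⟩ := hx
      rw [h1 t ht]
      exact (hp t ht).2.2
    · push Not at hx
      rw [h2 x hx]
      apply hf.adj
      intro h
      have h0 := hP.pos
      rcases hfix x h with h | h
      · exact hx 0 (by omega) h
      · exact hx m (by omega) h

open Classical in
theorem card_ge [Fintype V] {f g : V → V} {m : ℕ} {E : ℕ → V} (hP : APath f g m E) :
    2 * m ≤ #{x | f x ≠ g x} := by
  have h1 : (range (2 * m)).image E ⊆ ({x | f x ≠ g x} : Finset V) := by
    intro x hx
    obtain ⟨t, ht, rfl⟩ := mem_image.1 hx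
    rw [mem_range] at ht
    rw [mem_filter]
    refine ⟨mem_univ _, fun h => ?_⟩
    rw [hP.f_phi ht, hP.hg t ht] at h
    have := hP.inj _ _ (phi_lt ht) (by omega) h
    unfold phi at this
    split_ifs at this <;> omega
  calc 2 * m = #((range (2 * m)).image E) := by
        rw [card_image_of_injOn, card_range]
        intro i hi j hj h
        exact hP.inj i j (mem_range.1 hi) (mem_range.1 hj) h
    _ ≤ _ := card_le_card h1

open Classical in
theorem card_lt [Fintype V] {f g g' : V → V} {m : ℕ} {E : ℕ → V} (hP : APath f g m E) (p : ℕ → ℕ)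
    (h1 : ∀ t, t < 2 * m → g' (E t) = E (p t))
    (h2 : ∀ x, (∀ t, t < 2 * m → x ≠ E t) → g' x = f x) {s : ℕ} (hs : s < 2 * m)
    (hps : p s = phi m s) : #{x | f x ≠ g' x} < 2 * m := by
  have h3 : ({x | f x ≠ g' x} : Finset V) ⊆ ((range (2 * m)).erase s).image E := by
    intro x hx
    rw [mem_filter] at hx
    by_cases hx' : ∃ t, t < 2 * m ∧ x = E t
    · obtain ⟨t, ht, rfl⟩ := hx'
      refine mem_image.2 ⟨t, mem_erase.2 ⟨?_, mem_range.2 ht⟩, rfl⟩
      rintro rfl
      apply hx.2
      rw [h1 t ht, hps, hP.f_phi ht]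
    · push Not at hx'
      exact absurd (h2 x hx').symm hx.2
  calc #{x | f x ≠ g' x} ≤ #(((range (2 * m)).erase s).image E) := card_le_card h3
    _ ≤ #((range (2 * m)).erase s) := card_image_le
    _ < #(range (2 * m)) := card_erase_lt_of_mem (mem_range.2 hs)
    _ = 2 * m := card_range _

end Vale.Agent.P308
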