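import Vale.Agent.Lib.P308.Bound

/-!
# P308: counting
-/

namespace Vale.Agent.P308

open Finset Function

variable {V : Type*}

theorem not_lt_of {f₁ f₂ g : V → V} {m₁ m₂ c : ℕ} {E₁ E₂ : ℕ → V} (h₁ : APath f₁ g m₁ E₁)
    (h₂ : APath f₂ g m₂ E₂) (b₂ : m₂ ≤ c)
    (hE : ∀ i, i < c → E₁ (min i (m₁ - 1)) = E₂ (min i (m₂ - 1))) : ¬ m₁ < m₂ := by
  intro hlt
  have p₁ := h₁.pos
  have e1 := hE (m₁ - 1) (by omega)
  have e2 := hE m₁ (by omega)
  rw [min_self, min_eq_left (by omega)] at e1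
  rw [min_eq_right (by omega), min_eq_left (by omega)] at e2
  rw [e1] at e2
  have := h₂.inj _ _ (by omega) (by omega) e2
  omega

theorem eq_of {f₁ f₂ g : V → V} {m₁ m₂ c : ℕ} {E₁ E₂ : ℕ → V} (h₁ : APath f₁ g m₁ E₁)
    (h₂ : APath f₂ g m₂ E₂) (o₁ : ∀ x, (∀ t, t < 2 * m₁ → x ≠ E₁ t) → g x = f₁ x)
    (o₂ : ∀ x, (∀ t, t < 2 * m₂ → x ≠ E₂ t) → g x = f₂ x) (b₁ : m₁ ≤ c) (b₂ : m₂ ≤ c)
    (hE : ∀ i, i < c → E₁ (min i (m₁ - 1)) = E₂ (min i (m₂ - 1))) : f₁ = f₂ := by
  have hm : m₁ = m₂ := le_antisymm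
    (not_lt.1 (not_lt_of h₂ h₁ b₁ fun i hi => (hE i hi).symm)) (not_lt.1 (not_lt_of h₁ h₂ b₂ hE))
  subst hm
  have p₁ := h₁.pos
  have k1 : ∀ t, t < m₁ → E₁ t = E₂ t := fun t ht => by
    have := hE t (by omega)
    rwa [min_eq_left (by omega)] at this
  have k2 : ∀ t, t < 2 * m₁ → E₁ t = E₂ t := fun t ht => by
    rcases lt_or_ge t m₁ with h | h
    · exact k1 t h
    · have e1 := h₁.hg (2 * m₁ - 1 - t) (by omega)
      have e2 := h₂.hg (2 * m₁ - 1 - t) (by omega)
      rw [show 2 * m₁ - 1 - (2 * m₁ - 1 - t) = t by omega] at e1 e2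
      rw [← e1, ← e2, k1 _ (by omega)]
  funext x
  by_cases hx : ∃ t, t < 2 * m₁ ∧ x = E₁ t
  · obtain ⟨t, ht, rfl⟩ := hx
    rw [h₁.f_phi ht, k2 _ (phi_lt ht), k2 t ht, h₂.f_phi ht]
  · push Not at hx
    rw [← o₁ x hx, o₂ x fun t ht => by rw [← k2 t ht]; exact hx t ht]

theorem count_le [Fintype V] {G : SimpleGraph V} {a : ℕ} (hpr : Priv G a)
    (hG : ∃ g, Perf G g) :
    Nat.card {f : V → V // Invo G f ∧ ∃ u v, u ≠ v ∧ ∀ x, f x = x ↔ x = u ∨ x = v} ≤
      Fintype.card V ^ (4 * a) * Nat.card {g : V → V // Perf G g} := by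
  classical
  have key : ∀ f : {f : V → V // Invo G f ∧ ∃ u v, u ≠ v ∧ ∀ x, f x = x ↔ x = u ∨ x = v},
      ∃ g m E, Perf G g ∧ APath f.1 g m E ∧ (∀ x, (∀ t, t < 2 * m → x ≠ E t) → g x = f.1 x) ∧
      m ≤ 4 * a := by
    rintro ⟨f, hf, u, v, -, hfix⟩
    exact exists_short hpr hG hf hfix
  choose g m E hg hP ho hm using key
  have hinj : Injective (fun f : {f : V → V // Invo G f ∧ ∃ u v, u ≠ v ∧
      ∀ x, f x = x ↔ x = u ∨ x = v} =>
      ((fun i : Fin (4 * a) => E f (min i (m f - 1))),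
        (⟨g f, hg f⟩ : {g : V → V // Perf G g}))) := by
    intro f₁ f₂ h
    have h1 : (fun i : Fin (4 * a) => E f₁ (min i (m f₁ - 1))) =
      (fun i : Fin (4 * a) => E f₂ (min i (m f₂ - 1))) := congrArg Prod.fst h
    have h2 : g f₁ = g f₂ := congrArg Subtype.val (congrArg Prod.snd h)
    apply Subtype.ext
    refine eq_of (hP f₁) (h2 ▸ hP f₂) (ho f₁) (h2 ▸ ho f₂) (hm f₁) (hm f₂) fun i hi => ?_
    exact congrFun h1 ⟨i, hi⟩
  have h3 := Nat.card_le_card_of_injective _ hinj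
  rw [Nat.card_prod] at h3
  have h4 : Nat.card (Fin (4 * a) → V) = Fintype.card V ^ (4 * a) := by
    rw [Nat.card_eq_fintype_card, Fintype.card_fun, Fintype.card_fin]
  rwa [h4] at h3

/-! ### matchings as subgraphs -/

section

variable {G : SimpleGraph V}

open Classical in
/-- the partner -/
noncomputable def toInv (M : G.Subgraph) (x : V) : V := if h : ∃ y, M.Adj x y then h.choose else x

theorem toInv_of_adj {M : G.Subgraph} (hM : M.IsMatching) {x y : V} (h : M.Adj x y) :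
    toInv M x = y := by
  have h1 : ∃ y, M.Adj x y := ⟨y, h⟩
  unfold toInv
  rw [dif_pos h1]
  exact (hM (M.edge_vert h)).unique h1.choose_spec h

theorem adj_toInv {M : G.Subgraph} {x : V} (h : x ∈ M.verts) (hM : M.IsMatching) :
    M.Adj x (toInv M x) := by
  obtain ⟨y, hy, -⟩ := hM h
  rw [toInv_of_adj hM hy]
  exact hy

theorem toInv_fix {M : G.Subgraph} (hM : M.IsMatching) {x : V} :
    toInv M x = x ↔ x ∉ M.verts := by
  constructor
  · intro h hx
    have h1 := (adj_toInv hx hM).adj_sub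
    rw [h] at h1
    exact h1.ne rfl
  · intro h
    unfold toInv
    rw [dif_neg]
    rintro ⟨y, hy⟩
    exact h (M.edge_vert hy)

theorem toInv_invo {M : G.Subgraph} (hM : M.IsMatching) : Invo G (toInv M) := by
  refine ⟨fun x => ?_, fun x hx => ?_⟩
  · by_cases hx : x ∈ M.verts
    · exact toInv_of_adj hM (adj_toInv hx hM).symm
    · have h1 := (toInv_fix hM).2 hx
      rw [h1, h1]
  · have h1 : x ∈ M.verts := by
      by_contra h
      exact hx ((toInv_fix hM).2 h)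
    exact (adj_toInv h1 hM).adj_sub

theorem toInv_injective {M M' : G.Subgraph} (hM : M.IsMatching) (hM' : M'.IsMatching)
    (h : toInv M = toInv M') : M = M' := by
  have hv : ∀ x, x ∈ M.verts ↔ x ∈ M'.verts := fun x => by
    rw [← not_iff_not, ← toInv_fix hM, ← toInv_fix hM', h]
  have ha : ∀ {M M' : G.Subgraph} (_ : M.IsMatching) (_ : M'.IsMatching)
      (_ : toInv M = toInv M') (_ : ∀ x, x ∈ M.verts ↔ x ∈ M'.verts) (x y : V),
      M.Adj x y → M'.Adj x y := by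
    intro M M' hM hM' h hv x y hxy
    have h1 := toInv_of_adj hM hxy
    rw [h] at h1
    rw [← h1]
    exact adj_toInv ((hv x).1 (M.edge_vert hxy)) hM'
  refine SimpleGraph.Subgraph.ext (Set.ext hv) ?_
  funext x y
  exact propext ⟨ha hM hM' h hv x y, ha hM' hM h.symm (fun x => (hv x).symm) x y⟩

/-- the perfect matching of an involution -/
def fromInv {g : V → V} (hg : Perf G g) : G.Subgraph where
  verts := Set.univ
  Adj x y := g x = y
  adj_sub := by
    intro x y h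
    rw [← h]
    exact hg.adj x
  edge_vert := fun _ => trivial
  symm := ⟨fun x y h => by
    rw [← h]
    exact hg.inv x⟩

theorem fromInv_perfect {g : V → V} (hg : Perf G g) : (fromInv hg).IsPerfectMatching :=
  ⟨fun x _ => ⟨g x, rfl, fun _ h => Eq.symm (show g x = _ from h)⟩, fun _ => trivial⟩

end

theorem main [Fintype V] (G : SimpleGraph V) {a : ℕ} (hpr : Priv G a)
    (hM : ∃ M : G.Subgraph, M.IsPerfectMatching) :
    Nat.card {M : G.Subgraph // M.IsMatching ∧ (M.vertsᶜ).ncard = 2} ≤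
      Fintype.card V ^ (4 * a) * Nat.card {M : G.Subgraph // M.IsPerfectMatching} := by
  classical
  have hG : ∃ g, Perf G g := by
    obtain ⟨M, hM1, hM2⟩ := hM
    exact ⟨toInv M, (toInv_invo hM1).inv, fun x => (adj_toInv (hM2 x) hM1).adj_sub⟩
  have h1 : Nat.card {M : G.Subgraph // M.IsMatching ∧ (M.vertsᶜ).ncard = 2} ≤
      Nat.card {f : V → V // Invo G f ∧ ∃ u v, u ≠ v ∧ ∀ x, f x = x ↔ x = u ∨ x = v} := by
    refine Nat.card_le_card_of_injective (fun M => ⟨toInv M.1, toInv_invo M.2.1, ?_⟩) ?_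
    · obtain ⟨u, v, huv, h⟩ := Set.ncard_eq_two.1 M.2.2
      refine ⟨u, v, huv, fun x => ?_⟩
      rw [toInv_fix M.2.1, ← Set.mem_compl_iff, h]
      rfl
    · intro M M' h
      exact Subtype.ext (toInv_injective M.2.1 M'.2.1 (congrArg Subtype.val h))
  have h2 : Nat.card {g : V → V // Perf G g} ≤
      Nat.card {M : G.Subgraph // M.IsPerfectMatching} := by
    have hfin : Finite G.Subgraph := inferInstance
    refine Nat.card_le_card_of_injective (fun g => ⟨fromInv g.2, fromInv_perfect g.2⟩) ?_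
    intro g g' h
    have h3 : fromInv g.2 = fromInv g'.2 := congrArg Subtype.val h
    apply Subtype.ext
    funext x
    have h4 : (fromInv g'.2).Adj x (g.1 x) := by
      rw [← h3]
      rfl
    exact Eq.symm (show g'.1 x = g.1 x from h4)
  exact h1.trans ((count_le hpr hG).trans (Nat.mul_le_mul_left _ h2))

end Vale.Agent.P308
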