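import Vale.Agent.Lib.P308.Core

/-!
# P308: no shortening chords
-/

namespace Vale.Agent.P308

open Finset Function

variable {V : Type*}

open Classical in
/-- `g` is a perfect matching closest to `f` -/
def Closest [Fintype V] (G : SimpleGraph V) (f g : V → V) : Prop :=
  Perf G g ∧ ∀ g', Perf G g' → #{x | f x ≠ g x} ≤ #{x | f x ≠ g' x}

open Classical in
theorem exists_closest [Fintype V] {G : SimpleGraph V} (f : V → V) (h : ∃ g, Perf G g) :
    ∃ g, Closest G f g := by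
  obtain ⟨g, hg, hmin⟩ := Set.exists_min_image {g : V → V | Perf G g} (fun g => #{x | f x ≠ g x})
    (Set.toFinite _) h
  exact ⟨g, hg, hmin⟩

theorem no_better [Fintype V] {G : SimpleGraph V} {f g : V → V} {m : ℕ} {E : ℕ → V}
    (hf : Invo G f) (hc : Closest G f g) (hP : APath f g m E)
    (hfix : ∀ x, f x = x → x = E 0 ∨ x = E m) (p : ℕ → ℕ)
    (hp : ∀ t, t < 2 * m → p t < 2 * m ∧ p (p t) = t ∧ G.Adj (E t) (E (p t))) {s : ℕ}
    (hs : s < 2 * m) (hps : p s = phi m s) : False := by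
  obtain ⟨g', hg', h1, h2⟩ := modify hf hP hfix p hp
  exact absurd ((card_ge hP).trans (hc.2 g' hg')) (not_le.2 (card_lt hP p h1 h2 hs hps))

/-- adjacency of `E t` and `E (2 m - t)` -/
theorem adj_f {G : SimpleGraph V} {f g : V → V} {m : ℕ} {E : ℕ → V} (hf : Invo G f)
    (hP : APath f g m E) {t : ℕ} (h0 : 0 < t) (ht : t < 2 * m) (hm : t ≠ m) :
    G.Adj (E t) (E (2 * m - t)) := by
  rw [← hP.hf t h0 ht]
  apply hf.adj
  rw [hP.hf t h0 ht]
  intro h
  have := hP.inj _ _ (by omega) ht h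
  omega

theorem adj_g {G : SimpleGraph V} {f g : V → V} {m : ℕ} {E : ℕ → V} (hg : Perf G g)
    (hP : APath f g m E) {t : ℕ} (ht : t < 2 * m) : G.Adj (E t) (E (2 * m - 1 - t)) := by
  rw [← hP.hg t ht]
  exact hg.adj _

/-- the rearrangement of the indices for a chord -/
def pa (m i j t : ℕ) : ℕ :=
  if t = i then 2 * m - 1 - j else
    if t = 2 * m - 1 - j then i else
    if (i < t ∧ t ≤ j) ∨ (2 * m - j ≤ t ∧ t < 2 * m - i) then 2 * m - t else 2 * m - 1 - t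

theorem pa_spec {m i j t : ℕ} (hij : i < j) (hj : j < m) (ht : t < 2 * m) :
    (t = i ∧ pa m i j t = 2 * m - 1 - j) ∨ (t = 2 * m - 1 - j ∧ pa m i j t = i) ∨
    (((i < t ∧ t ≤ j) ∨ (2 * m - j ≤ t ∧ t < 2 * m - i)) ∧ pa m i j t = 2 * m - t) ∨
    ((t < i ∨ (j < t ∧ t < 2 * m - 1 - j) ∨ 2 * m - 1 - i < t) ∧ pa m i j t = 2 * m - 1 - t) := by
  unfold pa
  split_ifs with h1 h2 h3
  · exact Or.inl ⟨h1, rfl⟩
  · exact Or.inr (Or.inl ⟨h2, rfl⟩)
  · exact Or.inr (Or.inr (Or.inl ⟨h3, rfl⟩))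
  · refine Or.inr (Or.inr (Or.inr ⟨?_, rfl⟩))
    omega

theorem pa_lt {m i j t : ℕ} (hij : i < j) (hj : j < m) (ht : t < 2 * m) :
    pa m i j t < 2 * m := by
  have := pa_spec hij hj ht
  omega

theorem pa_pa {m i j t : ℕ} (hij : i < j) (hj : j < m) (ht : t < 2 * m) :
    pa m i j (pa m i j t) = t := by
  have h1 := pa_spec hij hj ht
  have h2 := pa_spec hij hj (pa_lt hij hj ht)
  omega

/-- no chord from an even vertex to a later odd vertex -/
theorem no_chord [Fintype V] {G : SimpleGraph V} {f g : V → V} {m : ℕ} {E : ℕ → V}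
    (hf : Invo G f) (hc : Closest G f g) (hP : APath f g m E)
    (hfix : ∀ x, f x = x → x = E 0 ∨ x = E m) {i j : ℕ} (hij : i < j) (hj : j < m) :
    ¬ G.Adj (E i) (E (2 * m - 1 - j)) := by
  intro hadj
  refine no_better hf hc hP hfix (pa m i j) (fun t ht => ⟨pa_lt hij hj ht, pa_pa hij hj ht, ?_⟩)
    (s := i + 1) (by omega) ?_
  · rcases pa_spec hij hj ht with ⟨h1, h2⟩ | ⟨h1, h2⟩ | ⟨h1, h2⟩ | ⟨h1, h2⟩
    · rw [h2, h1]; exact hadj
    · rw [h2, h1]; exact hadj.symm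
    · rw [h2]; exact adj_f hf hP (by omega) ht (by omega)
    · rw [h2]; exact adj_g hc.1 hP ht
  · have h1 := pa_spec hij hj (show i + 1 < 2 * m by omega)
    unfold phi
    rw [if_neg (Nat.succ_ne_zero i)]
    omega

/-- the rearrangement of the indices for two crossing chords -/
def pc (m i k j l t : ℕ) : ℕ :=
  if t = i then j else if t = j then i else
      if t = 2 * m - 1 - k then 2 * m - 1 - l else if t = 2 * m - 1 - l then 2 * m - 1 - k else
      if ((i < t ∧ t ≤ k) ∨ (2 * m - k ≤ t ∧ t < 2 * m - i)) ∨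
        ((j < t ∧ t ≤ l) ∨ (2 * m - l ≤ t ∧ t < 2 * m - j)) then 2 * m - t else 2 * m - 1 - t

theorem pc_spec {m i k j l t : ℕ} (hik : i ≤ k) (hkj : k < j) (hjl : j ≤ l) (hl : l < m)
    (ht : t < 2 * m) :
    (t = i ∧ pc m i k j l t = j) ∨ (t = j ∧ pc m i k j l t = i) ∨
    (t = 2 * m - 1 - k ∧ pc m i k j l t = 2 * m - 1 - l) ∨
    (t = 2 * m - 1 - l ∧ pc m i k j l t = 2 * m - 1 - k) ∨
    ((((i < t ∧ t ≤ k) ∨ (2 * m - k ≤ t ∧ t < 2 * m - i)) ∨
        ((j < t ∧ t ≤ l) ∨ (2 * m - l ≤ t ∧ t < 2 * m - j))) ∧ pc m i k j l t = 2 * m - t) ∨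
    ((t < i ∨ (k < t ∧ t < j) ∨ (l < t ∧ t < 2 * m - 1 - l) ∨
      (2 * m - 1 - j < t ∧ t < 2 * m - 1 - k) ∨ 2 * m - 1 - i < t) ∧
      pc m i k j l t = 2 * m - 1 - t) := by
  unfold pc
  split_ifs with h1 h2 h3 h4 h5
  · exact Or.inl ⟨h1, rfl⟩
  · exact Or.inr (Or.inl ⟨h2, rfl⟩)
  · exact Or.inr (Or.inr (Or.inl ⟨h3, rfl⟩))
  · exact Or.inr (Or.inr (Or.inr (Or.inl ⟨h4, rfl⟩)))
  · exact Or.inr (Or.inr (Or.inr (Or.inr (Or.inl ⟨h5, rfl⟩))))
  · refine Or.inr (Or.inr (Or.inr (Or.inr (Or.inr ⟨?_, rfl⟩))))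
    omega

theorem pc_lt {m i k j l t : ℕ} (hik : i ≤ k) (hkj : k < j) (hjl : j ≤ l) (hl : l < m)
    (ht : t < 2 * m) : pc m i k j l t < 2 * m := by
  have := pc_spec hik hkj hjl hl ht
  omega

theorem pc_pc {m i k j l t : ℕ} (hik : i ≤ k) (hkj : k < j) (hjl : j ≤ l) (hl : l < m)
    (ht : t < 2 * m) : pc m i k j l (pc m i k j l t) = t := by
  have h1 := pc_spec hik hkj hjl hl ht
  have h2 := pc_spec hik hkj hjl hl (pc_lt hik hkj hjl hl ht)
  rcases h1 with h1 | h1 | h1 | h1 | h1 | h1 <;> omega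

/-- no crossing chords -/
theorem no_cross [Fintype V] {G : SimpleGraph V} {f g : V → V} {m : ℕ} {E : ℕ → V}
    (hf : Invo G f) (hc : Closest G f g) (hP : APath f g m E)
    (hfix : ∀ x, f x = x → x = E 0 ∨ x = E m) {i k j l : ℕ} (hik : i ≤ k) (hkj : k < j)
    (hjl : j ≤ l) (hl : l < m) (h1 : G.Adj (E i) (E j))
    (h2 : G.Adj (E (2 * m - 1 - k)) (E (2 * m - 1 - l))) : i = k ∧ j = l := by
  by_contra hne
  have hne' : i < k ∨ j < l := by omega
  have key : ∀ s, s < 2 * m → ((i < s ∧ s ≤ k) ∨ (j < s ∧ s ≤ l)) → False := by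
    intro s hs hs'
    refine no_better hf hc hP hfix (pc m i k j l)
      (fun t ht => ⟨pc_lt hik hkj hjl hl ht, pc_pc hik hkj hjl hl ht, ?_⟩) (s := s) hs ?_
    · rcases pc_spec hik hkj hjl hl ht with ⟨a1, a2⟩ | ⟨a1, a2⟩ | ⟨a1, a2⟩ | ⟨a1, a2⟩ | ⟨a1, a2⟩ |
        ⟨a1, a2⟩
      · rw [a2, a1]; exact h1
      · rw [a2, a1]; exact h1.symm
      · rw [a2, a1]; exact h2
      · rw [a2, a1]; exact h2.symm
      · rw [a2]; exact adj_f hf hP (by omega) ht (by omega)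
      · rw [a2]; exact adj_g hc.1 hP ht
    · have h3 := pc_spec hik hkj hjl hl hs
      unfold phi
      rw [if_neg (by omega)]
      omega
  rcases hne' with h | h
  · exact key (i + 1) (by omega) (Or.inl ⟨by omega, by omega⟩)
  · exact key (j + 1) (by omega) (Or.inr ⟨by omega, by omega⟩)

end Vale.Agent.P308
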